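import Vale.Agent.P159.T1.H934.Markov

/-!
The expectation of `Psi h 0` (the quotient `free / wired` of the right side) decreases if couplings
are added.
-/

open MeasureTheory Filter Topology

namespace Vale.Agent.P159.T1.H50

open Vale.Agent.P159 Vale.Agent.P159.H353 Vale.Agent.P159.R2.H254 Vale.Agent.P159.R2.H729
  Vale.Agent.P159.T1.H934

variable {H : Type} [AddCommGroup H] {E R : Type} [Fintype E] [Fintype R]

/-- **Pinning inequality for a wall at height `0`.** -/
theorem mono_Psi0 {D : H →+ (E → ℤ)} (hD : Function.Injective D) {J K : E → ℝ}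
    (hJ : ∀ e, 0 ≤ J e) (hK : ∀ e, 0 ≤ K e) (ρ : H →+ (R → ℤ)) {b : R → ℝ} (hb : ∀ y, 0 ≤ b y) :
    (∑' h, W D (J + K) h * Psi ρ b h 0) * (∑' h, W D J h) ≤
      (∑' h, W D J h * Psi ρ b h 0) * ∑' h, W D (J + K) h := by
  have hJK : ∀ e, 0 ≤ (J + K) e := fun e => add_nonneg (hJ e) (hK e)
  haveI : Countable H := hD.countable
  have hA := (W_summable (D := D) hD hJK).abs
  have hB := (W_summable (D := D) hD hJ).abs
  have hA' := fejer_integral ρ hb hA 0
  have hB' := fejer_integral ρ hb hB 0
  have e0 : ∀ h : H, ∑ j ∈ Finset.range (0 + 1), ∑ k ∈ Finset.range (0 + 1),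
      Psi ρ b h ((j : ℤ) - k) = Psi ρ b h 0 := by
    intro h
    simp
  simp only [e0] at hA' hB'
  rw [hA', hB', ← integral_mul_const, ← integral_mul_const]
  have hcA : ∀ {A : H → ℝ} (_ : Summable fun h => |A h|),
      Continuous fun x : R → T => ∑' h, A h * (uu ρ h x).re := by
    intro A hA
    refine continuous_tsum (fun h => continuous_const.mul
      (Complex.continuous_re.comp (uu_cont ρ h))) hA fun h x => ?_
    rw [Real.norm_eq_abs, abs_mul]
    refine mul_le_of_le_one_right (abs_nonneg _) ?_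
    have := Complex.abs_re_le_norm (uu ρ h x)
    rwa [uu_norm] at this
  have hI : ∀ {A : H → ℝ} (_ : Summable fun h => |A h|) (c : ℝ), Integrable
      (fun x : R → T => gG b x * FM 0 x * (∑' h, A h * (uu ρ h x).re) * c) (muR R) := fun hA c =>
    ((((gG_cont b).mul (FM_cont 0)).mul (hcA hA)).mul
      continuous_const).integrable_of_hasCompactSupport (HasCompactSupport.of_compactSpace _)
  refine integral_mono (hI hA _) (hI hB _) fun x => ?_
  obtain ⟨l, hl⟩ := uu_cos ρ x
  have h0 : 0 ≤ gG b x * FM 0 x := mul_nonneg (gG_nonneg b x) (Complex.normSq_nonneg _)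
  have h1 := mul_le_mul_of_nonneg_left (mono_cos hD hJ hK l) h0
  simp only [hl]
  rw [mul_assoc, mul_assoc (gG b x * FM 0 x)]
  exact h1

end Vale.Agent.P159.T1.H50
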